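import Mathlib
import Vale.Agent.P243.Tetra
import Vale.Agent.P243.Split
import Vale.Agent.P243.Defs

/-! Absolute areas in the plane orthogonal to a unit vector, read in linear coordinates. -/

open MeasureTheory Set
open scoped RealInnerProductSpace ENNReal

namespace Vale.Agent.P243.Half

noncomputable section

/-- The determinant of two coefficient rows and a vector. -/
def det3 (a b c a' b' c' : ℝ) (u : E3) : ℝ :=
  a * (b' * u 2 - c' * u 1) - b * (a' * u 2 - c' * u 0) + c * (a' * u 1 - b' * u 0)

/-- The linear map with the two rows and the vector `u` as coefficient rows. -/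
def fullMap (a b c a' b' c' : ℝ) (u : E3) : E3 →ₗ[ℝ] E3 where
  toFun x := !₂[(coordMap a b c a' b' c' x).1, (coordMap a b c a' b' c' x).2,
    u 0 * x 0 + u 1 * x 1 + u 2 * x 2]
  map_add' x y := by
    ext i
    fin_cases i <;> simp [coordMap_apply] <;> ring
  map_smul' r x := by
    ext i
    fin_cases i <;> simp [coordMap_apply] <;> ring

theorem det_fullMap (a b c a' b' c' : ℝ) (u : E3) :
    LinearMap.det (fullMap a b c a' b' c' u) = det3 a b c a' b' c' u := by
  rw [← LinearMap.det_toMatrix (EuclideanSpace.basisFun (Fin 3) ℝ).toBasis, Matrix.det_fin_three]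
  simp [LinearMap.toMatrix_apply, fullMap, coordMap_apply, det3]
  ring

/-- The first two coordinates and the third one. -/
theorem volume_split {S : Set (ℝ × ℝ)} (hS : MeasurableSet S) :
    volume {y : E3 | (y 0, y 1) ∈ S ∧ y 2 ∈ Icc (0:ℝ) 1} = volume S := by
  have h1 : MeasurePreserving (fun y : E3 => (WithLp.ofLp y : Fin 3 → ℝ)) :=
    PiLp.volume_preserving_ofLp (Fin 3)
  have h2 := volume_preserving_piFinSuccAbove (fun _ : Fin 3 => ℝ) 2
  have h3 : MeasurePreserving (fun p : ℝ × (Fin 2 → ℝ) => (p.1, (p.2 0, p.2 1))) volume volume :=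
    (MeasurePreserving.id (volume : Measure ℝ)).prod (volume_preserving_finTwoArrow ℝ)
  have h := (h3.comp (h2.comp h1)).measure_preimage
    (s := Icc (0:ℝ) 1 ×ˢ S) (measurableSet_Icc.prod hS).nullMeasurableSet
  rw [Measure.volume_eq_prod, Measure.prod_prod, Real.volume_Icc] at h
  simp only [sub_zero, ENNReal.ofReal_one, one_mul] at h
  rw [← h]
  congr 1
  ext y
  simp [Fin.succAbove, Fin.removeNth, Fin.lt_def]
  tauto

variable {a b c a' b' c' : ℝ} {u : E3}

theorem inner_eq (u x : E3) : ⟪u, x⟫ = u 0 * x 0 + u 1 * x 1 + u 2 * x 2 := by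
  simp [PiLp.inner_apply, Fin.sum_univ_three, mul_comm]

theorem coordMap_lift (hu : coordMap a b c a' b' c' u = 0) (x : E3) (t : ℝ) :
    coordMap a b c a' b' c' (x + t • u) = coordMap a b c a' b' c' x := by
  rw [map_add, map_smul, hu, smul_zero, add_zero]

/-- the base cut out by a planar set -/
def baseSet (a b c a' b' c' : ℝ) (u : E3) (S : Set (ℝ × ℝ)) : Set (perp u) :=
  (fun z : perp u => coordMap a b c a' b' c' (z : E3)) ⁻¹' S

theorem measurableSet_baseSet {S : Set (ℝ × ℝ)} (hS : MeasurableSet S) :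
    MeasurableSet (baseSet a b c a' b' c' u S) :=
  ((coordMap a b c a' b' c').continuous_of_finiteDimensional.comp
    continuous_subtype_val).measurable hS

theorem mem_baseSet (hu1 : ‖u‖ = 1) (hu : coordMap a b c a' b' c' u = 0) {S : Set (ℝ × ℝ)}
    {x : E3} : (perp u).orthogonalProjectionOnto x ∈ baseSet a b c a' b' c' u S ↔
      coordMap a b c a' b' c' x ∈ S := by
  have h : coordMap a b c a' b' c' ((pr u x : Wp u) : E3) = coordMap a b c a' b' c' x := by
    conv_rhs => rw [← pr_decomp hu1 x]
    rw [coordMap_lift hu]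
  show coordMap a b c a' b' c' ((pr u x : Wp u) : E3) ∈ S ↔ _
  rw [h]

/-- The area of a base, read in coordinates. -/
theorem volume_baseSet (hu1 : ‖u‖ = 1) (hu : coordMap a b c a' b' c' u = 0)
    (hD : det3 a b c a' b' c' u ≠ 0) {S : Set (ℝ × ℝ)} (hS : MeasurableSet S) :
    volume (baseSet a b c a' b' c' u S) =
      ENNReal.ofReal |(det3 a b c a' b' c' u)⁻¹| * volume S := by
  set C : Set E3 := {y : E3 | (y 0, y 1) ∈ S ∧ y 2 ∈ Icc (0:ℝ) 1} with hC
  set Φ := fullMap a b c a' b' c' u with hΦ
  have hdet : LinearMap.det Φ = det3 a b c a' b' c' u := det_fullMap ..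
  have h1 : volume (Φ ⁻¹' C) = ENNReal.ofReal |(det3 a b c a' b' c' u)⁻¹| * volume S := by
    rw [Measure.addHaar_preimage_linearMap volume (by rw [hdet]; exact hD), hdet, hC,
      volume_split hS]
  have hpre : Φ ⁻¹' C = {x : E3 | coordMap a b c a' b' c' x ∈ S ∧ ⟪u, x⟫ ∈ Icc (0:ℝ) 1} := by
    ext x
    simp [hC, hΦ, fullMap, inner_eq]
  have hmeas : MeasurableSet (Φ ⁻¹' C) := by
    rw [hpre]
    exact ((coordMap a b c a' b' c').continuous_of_finiteDimensional.measurable hS).inter
      ((continuous_const.inner continuous_id).measurable measurableSet_Icc)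
  have h2 := (lift_measurePreserving hu1).measure_preimage hmeas.nullMeasurableSet
  have h3 : (fun p : Wp u × ℝ => (p.1 : E3) + p.2 • u) ⁻¹' (Φ ⁻¹' C) =
      baseSet a b c a' b' c' u S ×ˢ Icc (0:ℝ) 1 := by
    ext p
    rw [hpre]
    simp only [mem_preimage, mem_ofPred_eq, mem_prod, baseSet, coordMap_lift hu,
      inner_add_right, inner_smul_right, inner_Wp, inner_self_unit hu1, zero_add, mul_one]
  rw [h3, Measure.volume_eq_prod, Measure.prod_prod, Real.volume_Icc] at h2
  simpa [h1] using h2

theorem area_baseSet (hu1 : ‖u‖ = 1) (hu : coordMap a b c a' b' c' u = 0)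
    (hD : det3 a b c a' b' c' u ≠ 0) {S : Set (ℝ × ℝ)} (hS : MeasurableSet S) :
    area (baseSet a b c a' b' c' u S) = (volume S).toReal / |det3 a b c a' b' c' u| := by
  rw [area, volume_baseSet hu1 hu hD hS, ENNReal.toReal_mul, ENNReal.toReal_ofReal (abs_nonneg _),
    abs_inv, div_eq_mul_inv, mul_comm]

/-- A planar set inside the image of `K` bounds the shadow from below. -/
theorem le_area_shadow (hu1 : ‖u‖ = 1) (hu : coordMap a b c a' b' c' u = 0)
    (hD : det3 a b c a' b' c' u ≠ 0) {K : Set E3} (hK : IsCompact K) {S : Set (ℝ × ℝ)}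
    (hS : S ⊆ coordMap a b c a' b' c' '' K) :
    (volume S).toReal / |det3 a b c a' b' c' u| ≤ area (shadow K u) := by
  have hPK := hK.image (coordMap a b c a' b' c').continuous_of_finiteDimensional
  have hinj : Function.Injective (fullMap a b c a' b' c' u) :=
    (LinearEquiv.ofIsUnitDet (v := (EuclideanSpace.basisFun (Fin 3) ℝ).toBasis)
      (v' := (EuclideanSpace.basisFun (Fin 3) ℝ).toBasis) (f := fullMap a b c a' b' c' u)
      (by rw [LinearMap.det_toMatrix, det_fullMap]; exact isUnit_iff_ne_zero.2 hD)).injective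
  have hsub : baseSet a b c a' b' c' u (coordMap a b c a' b' c' '' K) ⊆ shadow K u := by
    rintro z ⟨k, hk, hkz⟩
    refine ⟨k, hk, Subtype.ext (hinj ?_)⟩
    have e1 : coordMap a b c a' b' c' ((pr u k : Wp u) : E3) =
        coordMap a b c a' b' c' (z : E3) := by
      refine Eq.trans ?_ hkz
      conv_rhs => rw [← pr_decomp hu1 k]
      rw [coordMap_lift hu]
    have e2 : ⟪u, ((pr u k : Wp u) : E3)⟫ = ⟪u, (z : E3)⟫ := by
      rw [inner_Wp, inner_Wp (u := u) z]
    ext i
    fin_cases i
    · exact congrArg Prod.fst e1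
    · exact congrArg Prod.snd e1
    · simpa [fullMap, inner_eq] using e2
  have hfin : volume (shadow K u) ≠ ∞ :=
    (hK.image (perp u).orthogonalProjectionOnto.continuous).measure_lt_top.ne
  refine le_trans ?_ (ENNReal.toReal_mono hfin (measure_mono hsub))
  rw [← area, area_baseSet hu1 hu hD hPK.measurableSet]
  gcongr
  exact hPK.measure_lt_top.ne

end

end Vale.Agent.P243.Half
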