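import Mathlib

/-! The fan of slightly tilted cylinders: the covering inequality and the total cost. -/

namespace Vale.Agent.P243.Half

noncomputable section

/-- the tilt parameter -/
def kap : ℝ := 1 / 1000

/-- the tilt of a piece along the other edge -/
def tiltQ (d m : ℝ) : ℝ := kap / 4 * (1 + m ^ 2 - d ^ 2)

/-- the tilt of a piece across the slices -/
def tiltH (m : ℝ) : ℝ := kap * m / 2

/-- the raise of the height of a piece -/
def rise (m : ℝ) : ℝ := kap ^ 2 / 16 * (m ^ 2 + m ^ 4) + kap ^ 3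

/-- the height of a piece -/
def height (m : ℝ) : ℝ := 1 / 2 + rise m

/-- the middle of a piece -/
def mid (d : ℝ) (j : ℕ) : ℝ := -1 + (2 * j + 1) * d

theorem kap_pos : 0 < kap := by norm_num [kap]

theorem discrete_ivt {L : ℕ → ℝ} : ∀ n : ℕ, 0 < n → 0 ≤ L 0 → L n ≤ 0 →
    ∃ j < n, 0 ≤ L j ∧ L (j + 1) ≤ 0
  | 0, h, _, _ => absurd h (lt_irrefl 0)
  | n + 1, _, h0, hn => by
    rcases le_or_gt 0 (L n) with h | h
    · exact ⟨n, Nat.lt_succ_self n, h, hn⟩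
    · have hn0 : 0 < n := Nat.pos_of_ne_zero fun e => by subst e; linarith
      obtain ⟨j, hj, hL⟩ := discrete_ivt n hn0 h0 h.le
      exact ⟨j, hj.trans (Nat.lt_succ_self n), hL⟩

/-- some piece of the fan contains every point of the wedge, up to its height -/
theorem fan_exists {N : ℕ} (hN : 0 < N) (p : ℝ) {q h : ℝ} (hq : |q| ≤ h) :
    ∃ j < N, ((mid (1 / N) j - 1 / N) * (h - tiltH (mid (1 / N) j) * p)
        ≤ q - tiltQ (1 / N) (mid (1 / N) j) * p) ∧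
      q - tiltQ (1 / N) (mid (1 / N) j) * p
        ≤ (mid (1 / N) j + 1 / N) * (h - tiltH (mid (1 / N) j) * p) := by
  set d : ℝ := 1 / N with hd
  let L : ℕ → ℝ := fun j => q - (-1 + 2 * j * d) * h - p * (kap / 4 * (1 - (-1 + 2 * j * d) ^ 2))
  obtain ⟨hq1, hq2⟩ := abs_le.1 hq
  have h0 : 0 ≤ L 0 := by simp only [L, Nat.cast_zero]; linarith
  have hNd : (N : ℝ) * d = 1 := by
    have : (0 : ℝ) < N := by exact_mod_cast hN
    rw [hd]; field_simp
  have hn : L N ≤ 0 := by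
    simp only [L]
    rw [show (2 : ℝ) * N * d = 2 by rw [mul_assoc, hNd]; ring]
    linarith
  obtain ⟨j, hj, a, b⟩ := discrete_ivt (L := L) N hN h0 hn
  refine ⟨j, hj, ?_, ?_⟩
  · have e : q - tiltQ d (mid d j) * p - (mid d j - d) * (h - tiltH (mid d j) * p) = L j := by
      simp only [L, tiltQ, tiltH, mid]; ring
    linarith
  · have e : q - tiltQ d (mid d j) * p - (mid d j + d) * (h - tiltH (mid d j) * p) = L (j + 1) := by
      simp only [L, tiltQ, tiltH, mid]; push_cast; ring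
    linarith

theorem abs_mul_le_of {a x C : ℝ} (ha : |a| ≤ 1) (hx : |x| ≤ C) : |a * x| ≤ C := by
  rw [abs_mul]
  exact (mul_le_of_le_one_left (abs_nonneg x) ha).trans hx

theorem mid_abs {N : ℕ} {j : ℕ} (hj : j < N) : |mid (1 / N) j| ≤ 1 := by
  have hN : (0 : ℝ) < N := by exact_mod_cast (Nat.zero_le j).trans_lt hj
  have hj' : (j : ℝ) + 1 ≤ N := by exact_mod_cast hj
  have e : (2 * (j : ℝ) + 1) * (1 / N) = (2 * j + 1) / N := by ring
  rw [mid, e, abs_le]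
  constructor
  · have : 0 ≤ (2 * (j : ℝ) + 1) / N := by positivity
    linarith
  · have : (2 * (j : ℝ) + 1) / N ≤ 2 := by rw [div_le_iff₀ hN]; linarith
    linarith

theorem rise_bounds {m : ℝ} (hm : |m| ≤ 1) : 0 ≤ rise m ∧ rise m ≤ kap ^ 2 / 4 := by
  have h2 : m ^ 2 ≤ 1 := by rw [← sq_abs]; exact pow_le_one₀ (abs_nonneg m) hm
  have h4 : m ^ 4 ≤ 1 := by nlinarith [sq_nonneg m]
  have h0 := kap_pos
  refine ⟨by unfold rise; positivity, ?_⟩
  have h3 : kap ^ 3 ≤ kap ^ 2 / 8 := by norm_num [kap]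
  have := mul_le_mul_of_nonneg_left (add_le_add h2 h4) (show 0 ≤ kap ^ 2 / 16 by positivity)
  unfold rise
  linarith

/-- where a piece is, to second order -/
theorem piece_mid {d m p q h : ℝ} (hd0 : 0 < d) (hd : 4 * d ≤ kap ^ 2) (hm : |m| ≤ 1) (hp : |p| ≤ 1)
    (hh : h ≤ 1 / 2 + kap / 2)
    (l₁ : (m - d) * (h - tiltH m * p) ≤ q - tiltQ d m * p)
    (l₂ : q - tiltQ d m * p ≤ (m + d) * (h - tiltH m * p)) :
    |q - (m / 2 + m * (h - 1 / 2) + kap / 4 * (1 - m ^ 2) * p)| ≤ 2 * d := by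
  set t := h - tiltH m * p with ht
  have hk := kap_pos
  have hk2 : kap ^ 2 ≤ 1 := by norm_num [kap]
  have hdt0 : 0 ≤ d * t := by linarith
  have h1 : t ≤ 1 := by
    have h2 := mul_le_mul_of_nonneg_left (abs_le.1 (abs_mul_le_of hm hp)).1
      (show 0 ≤ kap / 2 by linarith)
    have h3 : kap ≤ 1 / 1000 := le_rfl
    rw [ht, tiltH]
    linarith
  have hdt : d * t ≤ d := mul_le_of_le_one_right hd0.le h1
  have hd1 : d ≤ 1 := by linarith
  have hs : |kap * d ^ 2 / 4 * p| ≤ d := by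
    rw [abs_mul, abs_of_nonneg (show 0 ≤ kap * d ^ 2 / 4 by positivity)]
    refine (mul_le_of_le_one_right (by positivity) hp).trans ?_
    have h3 : kap ≤ 1 / 1000 := le_rfl
    have h4 : d ^ 2 ≤ d := by rw [sq]; exact mul_le_of_le_one_right hd0.le hd1
    have h5 : kap * d ^ 2 ≤ 1 * d := mul_le_mul (by linarith) h4 (sq_nonneg d) zero_le_one
    linarith
  have e : q - (m / 2 + m * (h - 1 / 2) + kap / 4 * (1 - m ^ 2) * p)
      = (q - tiltQ d m * p - m * t) - kap * d ^ 2 / 4 * p := by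
    rw [ht, tiltQ, tiltH]; ring
  rw [e]
  refine (abs_sub _ _).trans ?_
  have : |q - tiltQ d m * p - m * t| ≤ d := abs_le.2 ⟨by linarith, by linarith⟩
  linarith

theorem abs_scale {x C : ℝ} (hx : |x| ≤ C) : |kap / 4 * x| ≤ kap / 4 * C := by
  have h : 0 ≤ kap / 4 := by linarith [kap_pos]
  rw [abs_mul, abs_of_nonneg h]
  exact mul_le_mul_of_nonneg_left hx h

theorem abs_one_sub_sq {x : ℝ} (hx : |x| ≤ 1) : |1 - x ^ 2| ≤ 1 := by
  have h2 : x ^ 2 ≤ 1 := by rw [← sq_abs]; exact pow_le_one₀ (abs_nonneg x) hx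
  exact abs_le.2 ⟨by linarith, by linarith [sq_nonneg x]⟩

theorem first_order {d m D p q : ℝ} (hd : 4 * d ≤ kap ^ 2) (hm : |m| ≤ 1) (hp : |p| ≤ 1)
    (hD : |D| ≤ kap / 2) (hE : |q - (m / 2 + m * D + kap / 4 * (1 - m ^ 2) * p)| ≤ 2 * d) :
    |q - m / 2| ≤ kap := by
  have hk2 : kap ^ 2 ≤ kap / 1000 := by norm_num [kap]
  have hk := kap_pos
  have a := abs_le.1 (abs_mul_le_of hm hD)
  have b := abs_le.1 (abs_scale (abs_mul_le_of (abs_one_sub_sq hm) hp))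
  have c := abs_le.1 hE
  exact abs_le.2 ⟨by linarith, by linarith⟩

theorem second_order {d m n D p q : ℝ} (hd : 4 * d ≤ kap ^ 2) (hm : |m| ≤ 1)
    (hE : |q - (m / 2 + m * D + kap / 4 * (1 - m ^ 2) * p)| ≤ 2 * d)
    (hp' : |p - n / 2| ≤ kap) (hDm : |D - kap * m * n / 4| ≤ kap ^ 2 / 2) :
    |q - (m / 2 + kap * (m ^ 2 * n / 4 + (1 - m ^ 2) * n / 8))| ≤ 2 * kap ^ 2 := by
  have a := abs_le.1 (abs_mul_le_of hm hDm)
  have b := abs_le.1 (abs_scale (abs_mul_le_of (abs_one_sub_sq hm) hp'))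
  have c := abs_le.1 hE
  have h0 : 0 ≤ kap ^ 2 := sq_nonneg _
  exact abs_le.2 ⟨by linarith, by linarith⟩

/-- the two families meet: one of the two heights suffices -/
theorem interface {d m n p q h : ℝ} (hd0 : 0 < d) (hd : 4 * d ≤ kap ^ 2) (hm : |m| ≤ 1)
    (hn : |n| ≤ 1) (hp : |p| ≤ 1) (hq : |q| ≤ 1)
    (l₁ : (m - d) * (h - tiltH m * p) ≤ q - tiltQ d m * p)
    (l₂ : q - tiltQ d m * p ≤ (m + d) * (h - tiltH m * p))
    (u₁ : (n - d) * (1 - h + tiltH n * q) ≤ p + tiltQ d n * q)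
    (u₂ : p + tiltQ d n * q ≤ (n + d) * (1 - h + tiltH n * q)) :
    h - tiltH m * p ≤ height m ∨ 1 - h + tiltH n * q ≤ height n := by
  by_contra hc
  simp only [not_or, not_le, height, tiltH] at hc
  obtain ⟨c₁, c₂⟩ := hc
  obtain ⟨ha0, -⟩ := rise_bounds hm
  obtain ⟨hb0, -⟩ := rise_bounds hn
  have hk2' : 0 ≤ kap / 2 := by linarith [kap_pos]
  have hmp := mul_le_mul_of_nonneg_left (abs_le.1 (abs_mul_le_of hm hp)).1 hk2'
  have hnq := mul_le_mul_of_nonneg_left (abs_le.1 (abs_mul_le_of hn hq)).2 hk2'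
  have hDabs : |h - 1 / 2| ≤ kap / 2 := abs_le.2 ⟨by linarith, by linarith⟩
  have hD' := abs_le.1 hDabs
  have E1 := piece_mid hd0 hd hm hp (by linarith) l₁ l₂
  have E2 := piece_mid (p := -q) (q := p) (h := 1 - h) hd0 hd hn (by rwa [abs_neg]) (by linarith)
    (by convert u₁ using 1 <;> ring) (by convert u₂ using 1 <;> ring)
  have hDneg : |(1 - h) - 1 / 2| ≤ kap / 2 := abs_le.2 ⟨by linarith, by linarith⟩
  have hq' := first_order hd hm hp hDabs E1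
  have hp' := first_order hd hn (by rwa [abs_neg]) hDneg E2
  have a1 := mul_le_mul_of_nonneg_left (abs_le.1 (abs_mul_le_of hm hp')).1 hk2'
  have a2 := mul_le_mul_of_nonneg_left (abs_le.1 (abs_mul_le_of hn hq')).2 hk2'
  have hDm : |(h - 1 / 2) - kap * m * n / 4| ≤ kap ^ 2 / 2 :=
    abs_le.2 ⟨by linarith, by linarith⟩
  have hq'' := second_order (n := n) hd hm E1 hp' hDm
  have hp'' := second_order (n := -m) hd hn E2
    (by rw [show -q - -m / 2 = -(q - m / 2) by ring, abs_neg]; exact hq')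
    (by rw [show (1 - h - 1 / 2) - kap * n * -m / 4 = -((h - 1 / 2) - kap * m * n / 4) by ring,
      abs_neg]; exact hDm)
  have k1 := mul_le_mul_of_nonneg_left (abs_le.1 (abs_mul_le_of hm hp'')).1 hk2'
  have k2 := mul_le_mul_of_nonneg_left (abs_le.1 (abs_mul_le_of hn hq'')).2 hk2'
  have k3 : 0 ≤ kap ^ 2 / 16 * (m ^ 2 - n ^ 2) ^ 2 := by positivity
  unfold rise at *
  linarith

/-- the antiderivative used in the midpoint bound -/
def prim5 (x : ℝ) : ℝ := -x - 2 * x ^ 3 / 3 + 7 * x ^ 5 / 5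

theorem inv_sqrt_le {X : ℝ} (h0 : 0 ≤ X) (h1 : X ≤ 1) :
    1 / Real.sqrt (1 + X) ≤ 1 - X / 2 + X ^ 2 / 2 := by
  have hpos : 0 < Real.sqrt (1 + X) := Real.sqrt_pos.2 (by linarith)
  rw [div_le_iff₀ hpos]
  have hy : 0 ≤ 1 - X / 2 + X ^ 2 / 2 := by nlinarith
  have h := Real.le_sqrt_of_sq_le (x := 1) (y := (1 - X / 2 + X ^ 2 / 2) ^ 2 * (1 + X))
    (by nlinarith [pow_nonneg h0 2, pow_nonneg h0 3,
      mul_le_mul_of_nonneg_left h1 (pow_nonneg h0 3)])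
  rwa [Real.sqrt_mul (sq_nonneg _), Real.sqrt_sq hy] at h

theorem term_le {d m : ℝ} (hd0 : 0 ≤ d) (hd1 : d ≤ kap) (hm : |m| ≤ 1) :
    d * height m ^ 2 / Real.sqrt (1 + (tiltQ d m ^ 2 + 2 * tiltH m ^ 2)) ≤
      d * (1 / 4 + kap ^ 3 + 4 * kap ^ 4) + kap ^ 2 / 256 * (prim5 (m + d) - prim5 (m - d)) := by
  obtain ⟨hu0, hu1⟩ := rise_bounds hm
  have hk := kap_pos
  have hm2 : m ^ 2 ≤ 1 := by rw [← sq_abs]; exact pow_le_one₀ (abs_nonneg m) hm
  have hd2 : d ^ 2 ≤ kap ^ 2 := pow_le_pow_left₀ hd0 hd1 2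
  have hk2 : kap ^ 2 ≤ 1 := by norm_num [kap]
  set X := tiltQ d m ^ 2 + 2 * tiltH m ^ 2 with hX
  have hX0 : 0 ≤ X := by positivity
  have hs : (1 + m ^ 2 - d ^ 2) ^ 2 ≤ 4 := by nlinarith [sq_nonneg m, sq_nonneg d]
  have hX1 : X ≤ kap ^ 2 := by
    have e : X = kap ^ 2 / 16 * (1 + m ^ 2 - d ^ 2) ^ 2 + kap ^ 2 / 2 * m ^ 2 := by
      rw [hX, tiltQ, tiltH]; ring
    rw [e]
    have h1 := mul_le_mul_of_nonneg_left hs (show 0 ≤ kap ^ 2 / 16 by positivity)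
    have h2 := mul_le_mul_of_nonneg_left hm2 (show 0 ≤ kap ^ 2 / 2 by positivity)
    linarith
  have hXlow : kap ^ 2 / 16 * (1 + m ^ 2) ^ 2 + kap ^ 2 / 2 * m ^ 2 - kap ^ 4 / 4 ≤ X := by
    have e : X = kap ^ 2 / 16 * (1 + m ^ 2) ^ 2 + kap ^ 2 / 2 * m ^ 2
        - kap ^ 2 / 8 * ((1 + m ^ 2) * d ^ 2) + kap ^ 2 / 16 * d ^ 4 := by
      rw [hX, tiltQ, tiltH]; ring
    rw [e]
    have h1 : (1 + m ^ 2) * d ^ 2 ≤ 2 * kap ^ 2 :=
      mul_le_mul (by linarith) hd2 (sq_nonneg d) zero_le_two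
    have h2 := mul_le_mul_of_nonneg_left h1 (show 0 ≤ kap ^ 2 / 8 by positivity)
    have h3 : 0 ≤ kap ^ 2 / 16 * d ^ 4 := by positivity
    linarith
  have hH : height m ^ 2 = 1 / 4 + rise m + rise m ^ 2 := by rw [height]; ring
  have hsq := inv_sqrt_le hX0 (hX1.trans hk2)
  have h1 : height m ^ 2 / Real.sqrt (1 + X) ≤ 1 / 4 + rise m - X / 8 + kap ^ 4 := by
    rw [div_eq_mul_one_div]
    refine (mul_le_mul_of_nonneg_left hsq (sq_nonneg _)).trans ?_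
    rw [hH]
    have a1 : rise m ^ 2 ≤ (kap ^ 2 / 4) ^ 2 := pow_le_pow_left₀ hu0 hu1 2
    have a2 : X ^ 2 ≤ (kap ^ 2) ^ 2 := pow_le_pow_left₀ hX0 hX1 2
    have a3 : 0 ≤ rise m * X := mul_nonneg hu0 hX0
    have a4 : 0 ≤ rise m ^ 2 * X := mul_nonneg (sq_nonneg _) hX0
    have a6 : 0 ≤ kap ^ 4 := by positivity
    have a5 : (1 / 4 + rise m + rise m ^ 2) * X ^ 2 ≤ 1 * (kap ^ 2) ^ 2 :=
      mul_le_mul (by nlinarith) a2 (sq_nonneg _) zero_le_one
    linarith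
  have h2 : d * height m ^ 2 / Real.sqrt (1 + X) ≤
      d * (1 / 4 + kap ^ 3 + 2 * kap ^ 4) + kap ^ 2 / 256 * (2 * d * (-1 - 2 * m ^ 2 + 7 * m ^ 4)) := by
    rw [mul_div_assoc]
    refine (mul_le_mul_of_nonneg_left h1 hd0).trans ?_
    have h3 : rise m - X / 8 ≤ kap ^ 2 / 128 * (-1 - 2 * m ^ 2 + 7 * m ^ 4) + kap ^ 3 + kap ^ 4 := by
      unfold rise
      have : 0 ≤ kap ^ 4 := by positivity
      linarith
    have := mul_le_mul_of_nonneg_left h3 hd0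
    linarith
  have h4 : 2 * d * (-1 - 2 * m ^ 2 + 7 * m ^ 4) ≤ prim5 (m + d) - prim5 (m - d) + 2 * d ^ 3 := by
    have e : prim5 (m + d) - prim5 (m - d) = 2 * d * (-1 - 2 * m ^ 2 + 7 * m ^ 4)
        + d ^ 3 * (-4 / 3 + 28 * m ^ 2) + 14 / 5 * d ^ 5 := by
      unfold prim5; ring
    have h5 : 0 ≤ 28 * (d ^ 3 * m ^ 2) + 14 / 5 * d ^ 5 := by positivity
    have h6 : 0 ≤ d ^ 3 := by positivity
    linarith
  have h7 : kap ^ 2 / 256 * (2 * d ^ 3) ≤ d * kap ^ 4 := by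
    have := mul_le_mul_of_nonneg_left hd2 (show 0 ≤ kap ^ 2 / 128 * d by positivity)
    have h0 : 0 ≤ d * kap ^ 4 := by positivity
    linarith
  have h8 := mul_le_mul_of_nonneg_left h4 (show 0 ≤ kap ^ 2 / 256 by positivity)
  have h9 : 0 ≤ d * kap ^ 4 := by positivity
  linarith

/-- the bound on the cost of one family -/
def famCost : ℝ := 1 / 4 + kap ^ 3 + 4 * kap ^ 4 - kap ^ 2 / 480

theorem famCost_lt : famCost < 1 / 4 := by norm_num [famCost, kap]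

theorem sum_le {N : ℕ} (hN : 0 < N) (hd : 1 / (N : ℝ) ≤ kap) :
    ∑ j ∈ Finset.range N, (1 / (N : ℝ)) * height (mid (1 / N) j) ^ 2 /
      Real.sqrt (1 + (tiltQ (1 / N) (mid (1 / N) j) ^ 2 + 2 * tiltH (mid (1 / N) j) ^ 2))
      ≤ famCost := by
  set d : ℝ := 1 / N with hdd
  have hd0 : 0 ≤ d := by positivity
  refine (Finset.sum_le_sum fun j hj =>
    term_le hd0 hd (mid_abs (Finset.mem_range.1 hj))).trans ?_
  rw [Finset.sum_add_distrib, Finset.sum_const, Finset.card_range, ← Finset.mul_sum]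
  have e : ∀ j : ℕ, prim5 (mid d j + d) - prim5 (mid d j - d)
      = (fun i : ℕ => prim5 (-1 + 2 * i * d)) (j + 1) - (fun i : ℕ => prim5 (-1 + 2 * i * d)) j :=
    fun j => by
      simp only [mid]; push_cast
      rw [show -1 + (2 * (j : ℝ) + 1) * d + d = -1 + 2 * ((j : ℝ) + 1) * d by ring,
        show -1 + (2 * (j : ℝ) + 1) * d - d = -1 + 2 * (j : ℝ) * d by ring]
  rw [Finset.sum_congr rfl fun j _ => e j]
  rw [Finset.sum_range_sub (fun i : ℕ => prim5 (-1 + 2 * i * d)), nsmul_eq_mul, ← mul_assoc]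
  have hNd : (N : ℝ) * d = 1 := by
    have : (0 : ℝ) < N := by exact_mod_cast hN
    rw [hdd]; field_simp
  have e1 : -1 + 2 * (N : ℝ) * d = 1 := by rw [mul_assoc, hNd]; ring
  rw [hNd, e1]
  simp only [Nat.cast_zero, prim5, famCost]
  linarith

end

end Vale.Agent.P243.Half
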