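import Mathlib
import Vale.Agent.P243.Half.Area

/-! Every shadow of the tetrahedron has area at least `√2 / 2`. -/

open MeasureTheory Set

namespace Vale.Agent.P243.Half

noncomputable section

/-- twice the signed area of a triangle -/
def cr (a b c : ℝ × ℝ) : ℝ := (b.1 - a.1) * (c.2 - a.2) - (b.2 - a.2) * (c.1 - a.1)

/-- the linear part of the parametrisation of a triangle -/
def triLin (v w : ℝ × ℝ) : (ℝ × ℝ) →ₗ[ℝ] ℝ × ℝ :=
  (LinearMap.fst ℝ ℝ ℝ).smulRight v + (LinearMap.snd ℝ ℝ ℝ).smulRight w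

theorem det_triLin (v w : ℝ × ℝ) : LinearMap.det (triLin v w) = v.1 * w.2 - v.2 * w.1 := by
  rw [← LinearMap.det_toMatrix (Module.Basis.finTwoProd ℝ), Matrix.det_fin_two]
  simp [LinearMap.toMatrix_apply, triLin]
  ring

/-- the standard triangle -/
def stdTri : Set (ℝ × ℝ) := trap 0 1 0 0 1 (-1)

/-- the triangle with the given vertices -/
def tri (a b c : ℝ × ℝ) : Set (ℝ × ℝ) :=
  (fun z => a + z) '' (triLin (b - a) (c - a) '' stdTri)

theorem volume_image_tri (a b c : ℝ × ℝ) (A : Set (ℝ × ℝ)) :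
    volume ((fun z => a + z) '' (triLin (b - a) (c - a) '' A)) =
      ENNReal.ofReal |cr a b c| * volume A := by
  rw [image_add_left, measure_preimage_add, Measure.addHaar_image_linearMap, det_triLin]
  rfl

theorem volume_tri (a b c : ℝ × ℝ) : volume (tri a b c) = ENNReal.ofReal (|cr a b c| / 2) := by
  rw [tri, volume_image_tri, stdTri, volume_trap _ _ _ _ _ _ zero_le_one (by norm_num) (by norm_num),
    ← ENNReal.ofReal_mul (abs_nonneg _)]
  congr 1
  ring

theorem isCompact_tri (a b c : ℝ × ℝ) : IsCompact (tri a b c) := by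
  have h : IsCompact stdTri := by
    refine Metric.isCompact_of_isClosed_isBounded ?_ ((Metric.isBounded_Icc (0 : ℝ × ℝ) (1, 1)).subset ?_)
    · simp only [stdTri, trap, Set.ofPred_and]
      exact (isClosed_le (by fun_prop) (by fun_prop)).inter ((isClosed_le (by fun_prop) (by fun_prop)).inter
        ((isClosed_le (by fun_prop) (by fun_prop)).inter (isClosed_le (by fun_prop) (by fun_prop))))
    · rintro z ⟨h1, h2, h3, h4⟩
      exact ⟨⟨h1, by simpa using h3⟩, ⟨h2, show z.2 ≤ 1 by linarith⟩⟩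
  exact (h.image (triLin (b - a) (c - a)).continuous_of_finiteDimensional).image (by fun_prop)

theorem tri_mem {a b c z : ℝ × ℝ} (h : z ∈ tri a b c) :
    ∃ v : ℝ × ℝ, 0 ≤ v.1 ∧ 0 ≤ v.2 ∧ v.1 + v.2 ≤ 1 ∧
      z = a + (v.1 • (b - a) + v.2 • (c - a)) := by
  obtain ⟨w, ⟨v, ⟨h1, h2, h3, h4⟩, rfl⟩, rfl⟩ := h
  refine ⟨v, h1, by simpa using h3, by linarith, ?_⟩
  simp [triLin]

theorem tri_subset {a b c : ℝ × ℝ} {C : Set (ℝ × ℝ)} (hC : Convex ℝ C) (ha : a ∈ C) (hb : b ∈ C)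
    (hc : c ∈ C) : tri a b c ⊆ C := by
  intro z hz
  obtain ⟨v, h1, h2, h3, rfl⟩ := tri_mem hz
  have := hC.sum_mem (t := (Finset.univ : Finset (Fin 3))) (w := ![1 - v.1 - v.2, v.1, v.2])
    (z := ![a, b, c]) (by intro i _; fin_cases i <;> simp <;> linarith)
    (by simp [Fin.sum_univ_three]; ring)
    (by intro i _; fin_cases i <;> simpa)
  convert this using 1
  simp [Fin.sum_univ_three]
  module

theorem cr_tri (a b c : ℝ × ℝ) (v : ℝ × ℝ) :
    cr a c (a + (v.1 • (b - a) + v.2 • (c - a))) = -(v.1 * cr a b c) := by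
  simp [cr]; ring

theorem cr_tri' (a c d : ℝ × ℝ) (v : ℝ × ℝ) :
    cr a c (a + (v.1 • (c - a) + v.2 • (d - a))) = v.2 * cr a c d := by
  simp [cr]; ring

/-- two triangles on a common diagonal -/
theorem hull_ge {a b c d : ℝ × ℝ} {C : Set (ℝ × ℝ)} (hC : Convex ℝ C) (ha : a ∈ C) (hb : b ∈ C)
    (hc : c ∈ C) (hd : d ∈ C) (hfin : volume C ≠ ⊤) (hs : 0 ≤ cr a b c * cr a c d) :
    (|cr a b c| + |cr a c d|) / 2 ≤ (volume C).toReal := by
  have single : ∀ a b c, a ∈ C → b ∈ C → c ∈ C → |cr a b c| / 2 ≤ (volume C).toReal := by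
    intro a b c ha hb hc
    have h := ENNReal.toReal_mono hfin (measure_mono (tri_subset hC ha hb hc))
    rwa [volume_tri, ENNReal.toReal_ofReal (by positivity)] at h
  rcases eq_or_ne (cr a b c) 0 with h1 | h1
  · rw [h1, abs_zero, zero_add]; exact single a c d ha hc hd
  rcases eq_or_ne (cr a c d) 0 with h2 | h2
  · rw [h2, abs_zero, add_zero]; exact single a b c ha hb hc
  have hnull : volume (tri a b c ∩ tri a c d) = 0 := by
    refine measure_mono_null (t := (fun z => a + z) '' (triLin (b - a) (c - a) '' ({0} ×ˢ univ))) ?_ ?_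
    · rintro z ⟨hz1, hz2⟩
      obtain ⟨v, v1, v2, -, rfl⟩ := tri_mem hz1
      obtain ⟨w, w1, w2, -, hw⟩ := tri_mem hz2
      have e : -(v.1 * cr a b c) = w.2 * cr a c d := by rw [← cr_tri, hw, cr_tri']
      have hv : v.1 = 0 := by
        by_contra hne
        have k1 : 0 < v.1 * (cr a b c * cr a b c) :=
          mul_pos (lt_of_le_of_ne v1 (Ne.symm hne)) (mul_self_pos.2 h1)
        have k2 : 0 ≤ w.2 * (cr a b c * cr a c d) := mul_nonneg w2 hs
        have k3 : cr a b c * (-(v.1 * cr a b c)) = cr a b c * (w.2 * cr a c d) := by rw [e]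
        linarith
      exact ⟨triLin (b - a) (c - a) v, ⟨v, ⟨hv, trivial⟩, rfl⟩, by simp [triLin]⟩
    · rw [volume_image_tri, Measure.volume_eq_prod, Measure.prod_prod, Real.volume_singleton]
      simp
  have hu := measure_union_add_inter (tri a b c) (μ := volume) (isCompact_tri a c d).measurableSet
  rw [hnull, add_zero, volume_tri, volume_tri, ← ENNReal.ofReal_add (by positivity) (by positivity)] at hu
  have h := ENNReal.toReal_mono hfin (measure_mono
    (union_subset (tri_subset hC ha hb hc) (tri_subset hC ha hc hd)))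
  rw [hu, ENNReal.toReal_ofReal (by positivity)] at h
  linarith

theorem four_le {x₁ x₂ x₃ x₄ v : ℝ} (hsum : x₁ + x₂ + x₃ + x₄ = 0)
    (h₁ : |x₁| / 2 ≤ v) (h₂ : |x₂| / 2 ≤ v) (h₃ : |x₃| / 2 ≤ v) (h₄ : |x₄| / 2 ≤ v)
    (h12 : 0 ≤ x₁ * x₂ → (|x₁| + |x₂|) / 2 ≤ v) (h13 : 0 ≤ x₁ * x₃ → (|x₁| + |x₃|) / 2 ≤ v)
    (h14 : 0 ≤ x₁ * x₄ → (|x₁| + |x₄|) / 2 ≤ v) :
    (|x₁| + |x₂| + |x₃| + |x₄|) / 4 ≤ v := by
  rcases le_total 0 x₁ with a | a <;> rcases le_total 0 x₂ with b | b <;>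
    rcases le_total 0 x₃ with c | c <;> rcases le_total 0 x₄ with d | d <;>
    simp only [abs_of_nonneg, abs_of_nonpos, a, b, c, d] at h₁ h₂ h₃ h₄ h12 h13 h14 ⊢ <;>
    first
    | linarith
    | linarith [h12 (by nlinarith)]
    | linarith [h13 (by nlinarith)]
    | linarith [h14 (by nlinarith)]

/-- absolute values summing to zero -/
theorem sum_abs_sq {y₁ y₂ y₃ y₄ : ℝ} (h : y₁ + y₂ + y₃ + y₄ = 0) :
    2 * (y₁ ^ 2 + y₂ ^ 2 + y₃ ^ 2 + y₄ ^ 2) ≤ (|y₁| + |y₂| + |y₃| + |y₄|) ^ 2 := by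
  rcases le_total 0 y₁ with a | a <;> rcases le_total 0 y₂ with b | b <;>
    rcases le_total 0 y₃ with c | c <;> rcases le_total 0 y₄ with d | d <;>
    simp only [abs_of_nonneg, abs_of_nonpos, a, b, c, d] <;>
    nlinarith [mul_nonneg_iff.2 (Or.inl ⟨abs_nonneg y₁, abs_nonneg y₂⟩)]

theorem shadow_bound_coord {a b c a' b' c' : ℝ} {u : E3} (hu1 : ‖u‖ = 1)
    (hr : a * u 0 + b * u 1 + c * u 2 = 0) (hr' : a' * u 0 + b' * u 1 + c' * u 2 = 0)
    (hD : det3 a b c a' b' c' u ≠ 0) :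
    Real.sqrt 2 / 2 ≤ area (shadow tetra u) := by
  set D := det3 a b c a' b' c' u with hDd
  have hu : coordMap a b c a' b' c' u = 0 := by simp [coordMap_apply, hr, hr']
  have hn : u 0 * u 0 + u 1 * u 1 + u 2 * u 2 = 1 := by
    rw [← inner_eq, real_inner_self_eq_norm_sq, hu1, one_pow]
  have hX0 : b * c' - c * b' = D * u 0 := by
    rw [hDd, det3]
    linear_combination -(b * c' - c * b') * hn + (u 1 * c' - u 2 * b') * hr
      - (u 1 * c - u 2 * b) * hr'
  have hX1 : c * a' - a * c' = D * u 1 := by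
    rw [hDd, det3]
    linear_combination -(c * a' - a * c') * hn + (u 2 * a' - u 0 * c') * hr
      - (u 2 * a - u 0 * c) * hr'
  have hX2 : a * b' - b * a' = D * u 2 := by
    rw [hDd, det3]
    linear_combination -(a * b' - b * a') * hn + (u 0 * b' - u 1 * a') * hr
      - (u 0 * b - u 1 * a) * hr'
  set P := coordMap a b c a' b' c'
  set C := P '' tetra with hC
  have hconv : Convex ℝ C := convex_tetra.linear_image P
  have hcpt : IsCompact C := isCompact_tetra.image P.continuous_of_finiteDimensional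
  have hfin := hcpt.measure_lt_top (μ := (volume : Measure (ℝ × ℝ))).ne
  have hm : ∀ x y z : ℝ, x ≤ y + z → y ≤ x + z → z ≤ x + y → x + y + z ≤ 2 →
      (a * x + b * y + c * z, a' * x + b' * y + c' * z) ∈ C := fun x y z h1 h2 h3 h4 =>
    ⟨!₂[x, y, z], point_mem_tetra h1 h2 h3 h4, coordMap_point ..⟩
  have m0 := hm 0 0 0 (by norm_num) (by norm_num) (by norm_num) (by norm_num)
  have m1 := hm 1 1 0 (by norm_num) (by norm_num) (by norm_num) (by norm_num)
  have m2 := hm 1 0 1 (by norm_num) (by norm_num) (by norm_num) (by norm_num)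
  have m3 := hm 0 1 1 (by norm_num) (by norm_num) (by norm_num) (by norm_num)
  set p0 : ℝ × ℝ := (a * 0 + b * 0 + c * 0, a' * 0 + b' * 0 + c' * 0)
  set p1 : ℝ × ℝ := (a * 1 + b * 1 + c * 0, a' * 1 + b' * 1 + c' * 0)
  set p2 : ℝ × ℝ := (a * 1 + b * 0 + c * 1, a' * 1 + b' * 0 + c' * 1)
  set p3 : ℝ × ℝ := (a * 0 + b * 1 + c * 1, a' * 0 + b' * 1 + c' * 1)
  have e012 : cr p0 p1 p2 = D * (u 0 - u 1 - u 2) := by
    simp only [cr, p0, p1, p2]; linear_combination hX0 - hX1 - hX2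
  have e023 : cr p0 p2 p3 = D * (-u 0 - u 1 + u 2) := by
    simp only [cr, p0, p2, p3]; linear_combination -hX0 - hX1 + hX2
  have e031 : cr p0 p3 p1 = D * (-u 0 + u 1 - u 2) := by
    simp only [cr, p0, p1, p3]; linear_combination -hX0 + hX1 - hX2
  have e123 : cr p1 p2 p3 = -(D * (u 0 + u 1 + u 2)) := by
    simp only [cr, p1, p2, p3]; linear_combination -hX0 - hX1 - hX2
  have e102 : cr p1 p0 p2 = -(D * (u 0 - u 1 - u 2)) := by
    simp only [cr, p0, p1, p2]; linear_combination -hX0 + hX1 + hX2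
  have single : ∀ p q r, p ∈ C → q ∈ C → r ∈ C → |cr p q r| / 2 ≤ (volume C).toReal := by
    intro p q r hp hq hr
    have h := ENNReal.toReal_mono hfin (measure_mono (tri_subset hconv hp hq hr))
    rwa [volume_tri, ENNReal.toReal_ofReal (by positivity)] at h
  have s1 := single _ _ _ m0 m1 m2
  have s2 := single _ _ _ m0 m2 m3
  have s3 := single _ _ _ m0 m3 m1
  have s4 := single _ _ _ m1 m2 m3
  have q12 := hull_ge hconv m0 m1 m2 m3 hfin
  have q13 := hull_ge hconv m0 m3 m1 m2 hfin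
  have q14 := hull_ge hconv m1 m0 m2 m3 hfin
  rw [e012, e023] at q12
  rw [e031, e012] at q13
  rw [e102, e123, neg_mul_neg, abs_neg, abs_neg] at q14
  rw [e012] at s1; rw [e023] at s2; rw [e031] at s3; rw [e123, abs_neg] at s4
  have h4 := four_le (x₁ := D * (u 0 - u 1 - u 2)) (x₂ := D * (-u 0 - u 1 + u 2))
    (x₃ := D * (-u 0 + u 1 - u 2)) (x₄ := D * (u 0 + u 1 + u 2)) (by ring) s1 s2 s3 s4 q12
    (fun h => by have := q13 (by linarith); linarith) q14
  simp only [abs_mul] at h4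
  have hsq := sum_abs_sq (y₁ := u 0 - u 1 - u 2) (y₂ := -u 0 - u 1 + u 2)
    (y₃ := -u 0 + u 1 - u 2) (y₄ := u 0 + u 1 + u 2) (by ring)
  set Y := |u 0 - u 1 - u 2| + |-u 0 - u 1 + u 2| + |-u 0 + u 1 - u 2| + |u 0 + u 1 + u 2| with hY
  have hY0 : 0 ≤ Y := by positivity
  have hY8 : (2 * Real.sqrt 2) ^ 2 ≤ Y ^ 2 := by
    rw [mul_pow, Real.sq_sqrt zero_le_two]
    nlinarith
  have hY2 : 2 * Real.sqrt 2 ≤ Y := (pow_le_pow_iff_left₀ (by positivity) hY0 two_ne_zero).1 hY8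
  have hDpos : 0 < |D| := abs_pos.2 hD
  refine le_trans ?_ (le_area_shadow hu1 hu hD isCompact_tetra (Subset.refl C))
  rw [← hDd, le_div_iff₀ hDpos]
  calc Real.sqrt 2 / 2 * |D| ≤ Y / 4 * |D| := mul_le_mul_of_nonneg_right (by linarith) hDpos.le
    _ ≤ _ := le_trans (le_of_eq (by rw [hY]; ring)) h4

/-- Every shadow of the tetrahedron has area at least `√2 / 2`. -/
theorem shadow_bound (u : E3) (hu : ‖u‖ = 1) : Real.sqrt 2 / 2 ≤ area (shadow tetra u) := by
  have hn : u 0 * u 0 + u 1 * u 1 + u 2 * u 2 = 1 := by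
    rw [← inner_eq, real_inner_self_eq_norm_sq, hu, one_pow]
  rcases eq_or_ne (u 0 * u 0 + u 1 * u 1) 0 with h | h
  · have h0 : u 0 = 0 := by nlinarith [mul_self_nonneg (u 0), mul_self_nonneg (u 1)]
    have h1 : u 1 = 0 := by nlinarith [mul_self_nonneg (u 0), mul_self_nonneg (u 1)]
    refine shadow_bound_coord (a := 1) (b := 0) (c := 0) (a' := 0) (b' := 1) (c' := 0) hu
      (by simp [h0]) (by simp [h1]) ?_
    intro hz
    simp [det3] at hz
    rw [h0, h1, hz] at hn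
    norm_num at hn
  · refine shadow_bound_coord (a := -u 1) (b := u 0) (c := 0) (a' := -(u 0 * u 2))
      (b' := -(u 1 * u 2)) (c' := u 0 * u 0 + u 1 * u 1) hu (by ring) (by ring) ?_
    intro hz
    refine h ?_
    simp only [det3] at hz
    linear_combination hz - (u 0 * u 0 + u 1 * u 1) * hn

end

end Vale.Agent.P243.Half
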