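import Mathlib
import Vale.Agent.P243.Half.Shadow
import Vale.Agent.P243.Half.Fan

/-! A covering of the tetrahedron by tilted cylinders with total base area below half of every
shadow. -/

open MeasureTheory Set
open scoped RealInnerProductSpace

namespace Vale.Agent.P243.Half

noncomputable section

/-- the axis of a piece of the first family -/
def axLow (d m : ℝ) : E3 := !₂[(1 + tiltQ d m) / 2, tiltH m, (1 - tiltQ d m) / 2]

/-- the axis of a piece of the second family -/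
def axUp (d m : ℝ) : E3 := !₂[(tiltQ d m - 1) / 2, -tiltH m, (tiltQ d m + 1) / 2]

/-- the common length of the axes -/
def axLen (d m : ℝ) : ℝ := Real.sqrt (1 + (tiltQ d m ^ 2 + 2 * tiltH m ^ 2)) / Real.sqrt 2

theorem axLen_pos (d m : ℝ) : 0 < axLen d m := by unfold axLen; positivity

theorem axLen_sq (d m : ℝ) :
    axLen d m ^ 2 = (1 + (tiltQ d m ^ 2 + 2 * tiltH m ^ 2)) / 2 := by
  rw [axLen, div_pow, Real.sq_sqrt (by positivity), Real.sq_sqrt zero_le_two]

theorem norm_axLow (d m : ℝ) : ‖axLow d m‖ = axLen d m := by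
  rw [← sq_eq_sq₀ (norm_nonneg _) (axLen_pos d m).le, ← real_inner_self_eq_norm_sq, inner_eq,
    axLen_sq]
  simp [axLow]
  ring

theorem norm_axUp (d m : ℝ) : ‖axUp d m‖ = axLen d m := by
  rw [← sq_eq_sq₀ (norm_nonneg _) (axLen_pos d m).le, ← real_inner_self_eq_norm_sq, inner_eq,
    axLen_sq]
  simp [axUp]
  ring

/-- the base of a piece of the first family, in coordinates -/
def setLow (d m : ℝ) : Set (ℝ × ℝ) :=
  trap (-tiltH m) (height m - tiltH m) ((m - d) * tiltH m - tiltQ d m) (m - d)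
    ((m + d) * tiltH m - tiltQ d m) (m + d)

/-- the base of a piece of the second family, in coordinates -/
def setUp (d m : ℝ) : Set (ℝ × ℝ) :=
  trap (-1) (height m - 1) (m - d + 1) (m - d) (m + d + 1) (m + d)

theorem height_nonneg {m : ℝ} (hm : |m| ≤ 1) : 0 ≤ height m := by
  have := (rise_bounds hm).1
  unfold height
  linarith

theorem volume_setLow {d m : ℝ} (hd : 0 ≤ d) (hm : |m| ≤ 1) :
    (volume (setLow d m)).toReal = d * height m ^ 2 := by
  have hH := height_nonneg hm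
  rw [setLow, volume_trap _ _ _ _ _ _ (by linarith) (le_of_eq (by ring))
    (by have := mul_nonneg hd hH; linarith), ENNReal.toReal_ofReal]
  · ring
  · refine le_of_le_of_eq (show 0 ≤ d * height m ^ 2 by positivity) ?_
    ring

theorem volume_setUp {d m : ℝ} (hd : 0 ≤ d) (hm : |m| ≤ 1) :
    (volume (setUp d m)).toReal = d * height m ^ 2 := by
  have hH := height_nonneg hm
  rw [setUp, volume_trap _ _ _ _ _ _ (by linarith) (le_of_eq (by ring))
    (by have := mul_nonneg hd hH; linarith), ENNReal.toReal_ofReal]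
  · ring
  · refine le_of_le_of_eq (show 0 ≤ d * height m ^ 2 by positivity) ?_
    ring

/-- a piece of the first family as a cylinder -/
theorem low_piece {d m : ℝ} (hd : 0 ≤ d) (hm : |m| ≤ 1) :
    ∃ (u : E3) (B : Set (perp u)), IsBase u B ∧
      area B = Real.sqrt 2 / 2 * (d * height m ^ 2 /
        Real.sqrt (1 + (tiltQ d m ^ 2 + 2 * tiltH m ^ 2))) ∧
      ∀ x : E3, (m - d) * (x 1 - tiltH m * (x 0 + x 2 - 1))
          ≤ (x 0 - x 2) - tiltQ d m * (x 0 + x 2 - 1) →
        (x 0 - x 2) - tiltQ d m * (x 0 + x 2 - 1)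
          ≤ (m + d) * (x 1 - tiltH m * (x 0 + x 2 - 1)) →
        0 ≤ x 1 - tiltH m * (x 0 + x 2 - 1) → x 1 - tiltH m * (x 0 + x 2 - 1) ≤ height m →
        x ∈ cylinder u B := by
  set b := tiltQ d m with hb
  set g := tiltH m with hg
  set w := axLow d m with hw
  have hL := axLen_pos d m
  set u : E3 := (axLen d m)⁻¹ • w with hu
  have hu1 : ‖u‖ = 1 := by
    rw [hu, norm_smul, norm_axLow, Real.norm_eq_abs, abs_of_pos (inv_pos.2 hL), inv_mul_cancel₀ hL.ne']
  have hPu : coordMap (-g) 1 (-g) (1 - b) 0 (-(1 + b)) u = 0 := by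
    rw [hu, map_smul, hw, axLow, coordMap_point, ← hb, ← hg]
    rw [show (-g * ((1 + b) / 2) + 1 * g + -g * ((1 - b) / 2),
      (1 - b) * ((1 + b) / 2) + 0 * g + -(1 + b) * ((1 - b) / 2)) = (0 : ℝ × ℝ) by
        ext <;> simp <;> ring, smul_zero]
  have hdet : det3 (-g) 1 (-g) (1 - b) 0 (-(1 + b)) u = -(2 * axLen d m) := by
    have e : det3 (-g) 1 (-g) (1 - b) 0 (-(1 + b)) u = -(2 * (axLen d m)⁻¹ * axLen d m ^ 2) := by
      rw [axLen_sq, ← hb, ← hg, hu, det3, hw, axLow]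
      simp [← hb, ← hg]
      ring
    rw [e]
    field_simp
  have hD : det3 (-g) 1 (-g) (1 - b) 0 (-(1 + b)) u ≠ 0 := by rw [hdet]; linarith
  refine ⟨u, baseSet (-g) 1 (-g) (1 - b) 0 (-(1 + b)) u (setLow d m),
    ⟨hu1, measurableSet_baseSet (measurableSet_trap ..), ?_⟩, ?_, ?_⟩
  · rw [volume_baseSet hu1 hPu hD (S := setLow d m) (measurableSet_trap ..)]
    refine ENNReal.mul_ne_top ENNReal.ofReal_ne_top ?_
    rw [setLow, volume_trap _ _ _ _ _ _ (by linarith [height_nonneg hm]) (le_of_eq (by ring))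
      (by have := mul_nonneg hd (height_nonneg hm); linarith)]
    exact ENNReal.ofReal_ne_top
  · rw [area_baseSet hu1 hPu hD (S := setLow d m) (measurableSet_trap ..), volume_setLow hd hm, hdet,
      abs_neg, abs_of_pos (by positivity), axLen, hb, hg]
    field_simp
  · intro x h1 h2 h3 h4
    simp only [cylinder, Set.mem_ofPred_eq]
    rw [mem_baseSet hu1 hPu, coordMap_apply, setLow, trap, ← hb, ← hg]
    refine ⟨?_, ?_, ?_, ?_⟩ <;> simp only <;> linarith

/-- a piece of the second family as a cylinder -/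
theorem up_piece {d m : ℝ} (hd : 0 ≤ d) (hm : |m| ≤ 1) :
    ∃ (u : E3) (B : Set (perp u)), IsBase u B ∧
      area B = Real.sqrt 2 / 2 * (d * height m ^ 2 /
        Real.sqrt (1 + (tiltQ d m ^ 2 + 2 * tiltH m ^ 2))) ∧
      ∀ x : E3, (m - d) * (1 - x 1 + tiltH m * (x 0 - x 2))
          ≤ (x 0 + x 2 - 1) + tiltQ d m * (x 0 - x 2) →
        (x 0 + x 2 - 1) + tiltQ d m * (x 0 - x 2)
          ≤ (m + d) * (1 - x 1 + tiltH m * (x 0 - x 2)) →
        0 ≤ 1 - x 1 + tiltH m * (x 0 - x 2) → 1 - x 1 + tiltH m * (x 0 - x 2) ≤ height m →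
        x ∈ cylinder u B := by
  set b := tiltQ d m with hb
  set g := tiltH m with hg
  set w := axUp d m with hw
  have hL := axLen_pos d m
  set u : E3 := (axLen d m)⁻¹ • w with hu
  have hu1 : ‖u‖ = 1 := by
    rw [hu, norm_smul, norm_axUp, Real.norm_eq_abs, abs_of_pos (inv_pos.2 hL), inv_mul_cancel₀ hL.ne']
  have hPu : coordMap g (-1) (-g) (1 + b) 0 (1 - b) u = 0 := by
    rw [hu, map_smul, hw, axUp, coordMap_point, ← hb, ← hg]
    rw [show (g * ((b - 1) / 2) + -1 * -g + -g * ((b + 1) / 2),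
      (1 + b) * ((b - 1) / 2) + 0 * -g + (1 - b) * ((b + 1) / 2)) = (0 : ℝ × ℝ) by
        ext <;> simp <;> ring, smul_zero]
  have hdet : det3 g (-1) (-g) (1 + b) 0 (1 - b) u = 2 * axLen d m := by
    have e : det3 g (-1) (-g) (1 + b) 0 (1 - b) u = 2 * (axLen d m)⁻¹ * axLen d m ^ 2 := by
      rw [axLen_sq, ← hb, ← hg, hu, det3, hw, axUp]
      simp [← hb, ← hg]
      ring
    rw [e]
    field_simp
  have hD : det3 g (-1) (-g) (1 + b) 0 (1 - b) u ≠ 0 := by rw [hdet]; linarith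
  refine ⟨u, baseSet g (-1) (-g) (1 + b) 0 (1 - b) u (setUp d m),
    ⟨hu1, measurableSet_baseSet (measurableSet_trap ..), ?_⟩, ?_, ?_⟩
  · rw [volume_baseSet hu1 hPu hD (S := setUp d m) (measurableSet_trap ..)]
    refine ENNReal.mul_ne_top ENNReal.ofReal_ne_top ?_
    rw [setUp, volume_trap _ _ _ _ _ _ (by linarith [height_nonneg hm]) (le_of_eq (by ring))
      (by have := mul_nonneg hd (height_nonneg hm); linarith)]
    exact ENNReal.ofReal_ne_top
  · rw [area_baseSet hu1 hPu hD (S := setUp d m) (measurableSet_trap ..), volume_setUp hd hm, hdet,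
      abs_of_pos (by positivity), axLen, hb, hg]
    field_simp
  · intro x h1 h2 h3 h4
    simp only [cylinder, Set.mem_ofPred_eq]
    rw [mem_baseSet hu1 hPu, coordMap_apply, setUp, trap]
    refine ⟨?_, ?_, ?_, ?_⟩ <;> simp only <;> linarith

/-- The tetrahedron is covered by cylinders of total base area at most `c < 1/2` times every
shadow. -/
theorem half_area_false :
    ∃ (m : ℕ) (u : Fin m → E3) (B : (i : Fin m) → Set (perp (u i))),
      (∀ i, IsBase (u i) (B i)) ∧ tetra ⊆ ⋃ i, cylinder (u i) (B i) ∧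
      ∃ c : ℝ, c < 1 / 2 ∧ ∀ v : E3, ‖v‖ = 1 → ∑ i, area (B i) ≤ c * area (shadow tetra v) := by
  obtain ⟨N, hN⟩ := exists_nat_gt (4 / kap ^ 2)
  have hk : 0 < kap ^ 2 := pow_pos kap_pos 2
  have hNr : (0 : ℝ) < N := lt_trans (by positivity) hN
  have hN0 : 0 < N := by exact_mod_cast hNr
  set d : ℝ := 1 / N with hd
  have hd0 : 0 < d := by positivity
  have hd4 : 4 * d ≤ kap ^ 2 := by
    rw [div_lt_iff₀ hk] at hN
    rw [hd, mul_one_div, div_le_iff₀ hNr]
    linarith
  have hdk : d ≤ kap := by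
    have : kap ^ 2 ≤ kap := by norm_num [kap]
    linarith
  have hpieces : ∀ p : Fin N ⊕ Fin N, ∃ (u : E3) (B : Set (perp u)), IsBase u B ∧
      area B = Real.sqrt 2 / 2 * Sum.elim
        (fun j : Fin N => d * height (mid d j) ^ 2 /
          Real.sqrt (1 + (tiltQ d (mid d j) ^ 2 + 2 * tiltH (mid d j) ^ 2)))
        (fun j : Fin N => d * height (mid d j) ^ 2 /
          Real.sqrt (1 + (tiltQ d (mid d j) ^ 2 + 2 * tiltH (mid d j) ^ 2))) p ∧
      ∀ x : E3, Sum.elim
        (fun j : Fin N => (mid d j - d) * (x 1 - tiltH (mid d j) * (x 0 + x 2 - 1))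
            ≤ (x 0 - x 2) - tiltQ d (mid d j) * (x 0 + x 2 - 1) ∧
          (x 0 - x 2) - tiltQ d (mid d j) * (x 0 + x 2 - 1)
            ≤ (mid d j + d) * (x 1 - tiltH (mid d j) * (x 0 + x 2 - 1)) ∧
          x 1 - tiltH (mid d j) * (x 0 + x 2 - 1) ≤ height (mid d j))
        (fun j : Fin N => (mid d j - d) * (1 - x 1 + tiltH (mid d j) * (x 0 - x 2))
            ≤ (x 0 + x 2 - 1) + tiltQ d (mid d j) * (x 0 - x 2) ∧
          (x 0 + x 2 - 1) + tiltQ d (mid d j) * (x 0 - x 2)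
            ≤ (mid d j + d) * (1 - x 1 + tiltH (mid d j) * (x 0 - x 2)) ∧
          1 - x 1 + tiltH (mid d j) * (x 0 - x 2) ≤ height (mid d j)) p → x ∈ cylinder u B := by
    have pos_of : ∀ {s t : ℝ}, (s - d) * t ≤ (s + d) * t → 0 ≤ t := fun {s t} h =>
      nonneg_of_mul_nonneg_right (by linarith : 0 ≤ d * t) hd0
    rintro (j | j)
    · obtain ⟨u, B, h1, h2, h3⟩ := low_piece (m := mid d j) hd0.le (mid_abs j.isLt)
      exact ⟨u, B, h1, h2, fun x ⟨a, b, c⟩ => h3 x a b (pos_of (a.trans b)) c⟩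
    · obtain ⟨u, B, h1, h2, h3⟩ := up_piece (m := mid d j) hd0.le (mid_abs j.isLt)
      exact ⟨u, B, h1, h2, fun x ⟨a, b, c⟩ => h3 x a b (pos_of (a.trans b)) c⟩
  choose u B hB hA hC using hpieces
  set e := (Fintype.equivFin (Fin N ⊕ Fin N)).symm
  refine ⟨_, fun i => u (e i), fun i => B (e i), fun i => hB _, ?_, 2 * famCost,
    by linarith [famCost_lt], ?_⟩
  · intro x hx
    obtain ⟨h1, h2, h3, h4⟩ := hx
    have hq : |x 0 - x 2| ≤ x 1 := abs_le.2 ⟨by linarith, by linarith⟩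
    have hp : |x 0 + x 2 - 1| ≤ 1 - x 1 := abs_le.2 ⟨by linarith, by linarith⟩
    obtain ⟨j, hj, a1, a2⟩ := fan_exists hN0 (x 0 + x 2 - 1) hq
    obtain ⟨k, hk', b1, b2⟩ := fan_exists hN0 (-(x 0 - x 2)) hp
    have b1' : (mid d k - d) * (1 - x 1 + tiltH (mid d k) * (x 0 - x 2))
        ≤ (x 0 + x 2 - 1) + tiltQ d (mid d k) * (x 0 - x 2) := by
      convert b1 using 1 <;> rw [← hd] <;> ring
    have b2' : (x 0 + x 2 - 1) + tiltQ d (mid d k) * (x 0 - x 2)
        ≤ (mid d k + d) * (1 - x 1 + tiltH (mid d k) * (x 0 - x 2)) := by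
      convert b2 using 1 <;> rw [← hd] <;> ring
    rw [mem_iUnion]
    have key : ∀ p, x ∈ cylinder (u p) (B p) → ∃ i, x ∈ cylinder (u (e i)) (B (e i)) := fun p h => by
      obtain ⟨i, rfl⟩ := e.surjective p
      exact ⟨i, h⟩
    rcases interface hd0 hd4 (mid_abs hj) (mid_abs hk')
      (hp.trans (by linarith [abs_nonneg (x 0 - x 2)]))
      (hq.trans (by linarith [abs_nonneg (x 0 + x 2 - 1)])) a1 a2 b1' b2' with h | h
    · exact key _ (hC (.inl ⟨j, hj⟩) x ⟨a1, a2, h⟩)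
    · exact key _ (hC (.inr ⟨k, hk'⟩) x ⟨b1', b2', h⟩)
  · intro v hv
    have hsum := sum_le hN0 hdk
    rw [← hd, ← Fin.sum_univ_eq_sum_range (fun j : ℕ => d * height (mid d j) ^ 2 /
      Real.sqrt (1 + (tiltQ d (mid d j) ^ 2 + 2 * tiltH (mid d j) ^ 2))) N] at hsum
    rw [e.sum_comp (fun p => area (B p)), Fintype.sum_sum_type]
    simp only [hA, Sum.elim_inl, Sum.elim_inr, ← Finset.mul_sum]
    have hs2 : 0 ≤ Real.sqrt 2 / 2 := by positivity
    have h1 := mul_le_mul_of_nonneg_left hsum hs2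
    have h2 := mul_le_mul_of_nonneg_left (shadow_bound v hv)
      (show 0 ≤ 2 * famCost by norm_num [famCost, kap])
    linarith

end

end Vale.Agent.P243.Half
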